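import Vale.Agent.Lib.P209.FS.Disj

/-!
# P209 FS module M3: a configuration of unit vectors gives a packing (FROZEN)

ROUTE (model: the end of `two_ball` in `TwoBall.lean`; its private lemmas `cball_norm`, `cball_sub`,
`image_sub` must be re-proved privately here).  `0 < R` follows from `h0`/`hr` if `k > 0` (if `k = 0`
everything is vacuous: use `Fin.elim0` / `isEmptyElim`; or take `ρ = √(|R|/π) + 1`... simplest: case on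
`IsEmpty (Fin k)`).  `ρ = √(R/π)`, `π ρ² = R`.  `U i` from `exists_isometry (p i) (hp i)` (`choose`),
`φ i = F n ρ (U i)`.  `isSympEmb_F` needs `r i < π (ρ² ‖U i e0 0‖²) = R ‖p i 0‖²`.
Images in `oball` by `norm_F_lt`.  Disjointness by `F_ne_F_general`: for `π‖z‖² ≤ r i`, `π‖z'‖² ≤ r j`:
`π ‖z‖ ‖z'‖ ≤ √(r i r j)` (`Real.le_sqrt`, square it), `R - r i ≤ π (ρ² - ‖z‖²)`, so
`√((R - r i)(R - r j)) ≤ √(π² (ρ²-‖z‖²)(ρ²-‖z'‖²)) = π √(ρ²-‖z‖²) √(ρ²-‖z'‖²)`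
(`0 ≤ R - r i` because `‖p i 0‖ ≤ ‖p i‖ = 1`, `PiLp.norm_apply_le`); divide by `π`.
-/

namespace Vale.Agent.P209

private theorem cball_norm' {n : ℕ} {a : ℝ} {z : Cn n} (hz : z ∈ cball n a) :
    Real.pi * ‖z‖ ^ 2 ≤ a := by
  have h1 : Real.pi * ∑ j, ‖z j‖ ^ 2 ≤ a := hz
  rwa [← EuclideanSpace.norm_sq_eq] at h1

private theorem cball_sub' {n : ℕ} {ρ : ℝ} (U : Cn (n + 1) ≃ₗᵢ[ℂ] Cn (n + 1)) (a : ℝ)
    (ha : a < Real.pi * (ρ ^ 2 * ‖U (e0 n) 0‖ ^ 2)) {z : Cn n} (hz : z ∈ cball n a) :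
    ‖z‖ ^ 2 < ρ ^ 2 * ‖U (e0 n) 0‖ ^ 2 := by
  have h1 := cball_norm' hz
  have h2 : Real.pi * ‖z‖ ^ 2 < Real.pi * (ρ ^ 2 * ‖U (e0 n) 0‖ ^ 2) := lt_of_le_of_lt h1 ha
  exact lt_of_mul_lt_mul_left h2 Real.pi_pos.le

private theorem image_sub' {n : ℕ} {ρ : ℝ} (hρ : 0 < ρ) (U : Cn (n + 1) ≃ₗᵢ[ℂ] Cn (n + 1)) (a R : ℝ)
    (hR : Real.pi * ρ ^ 2 = R)
    (ha : a < Real.pi * (ρ ^ 2 * ‖U (e0 n) 0‖ ^ 2)) : F n ρ U '' cball n a ⊆ oball n R := by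
  rintro _ ⟨z, hz, rfl⟩
  have hd : z ∈ dom n ρ U := mem_dom hρ U (cball_sub' U a ha hz)
  have h1 := norm_F_lt hρ U hd
  show Real.pi * ∑ j, ‖(F n ρ U z) j‖ ^ 2 < R
  rw [← EuclideanSpace.norm_sq_eq, ← hR]
  have h2 : ‖F n ρ U z‖ ^ 2 < ρ ^ 2 := by
    have := norm_nonneg (F n ρ U z)
    nlinarith
  exact mul_lt_mul_of_pos_left h2 Real.pi_pos

theorem packs_of_config (n k : ℕ) (r : Fin k → ℝ) (hr : ∀ i, 0 < r i) (R : ℝ)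
    (p : Fin k → Cn (n + 1)) (hp : ∀ i, ‖p i‖ = 1) (h0 : ∀ i, r i < R * ‖p i 0‖ ^ 2)
    (hij : ∀ i j, i ≠ j → R * ‖inner ℂ (p i) (p j)‖ + Real.sqrt (r i * r j) <
      Real.sqrt ((R - r i) * (R - r j))) : Packs n k r R := by
  rcases Nat.eq_zero_or_pos k with rfl | hk
  · exact ⟨fun i => i.elim0, fun i => i.elim0, fun i => i.elim0, fun i => i.elim0⟩
  have hpi := Real.pi_pos
  have hp01 : ∀ i, ‖p i 0‖ ^ 2 ≤ 1 := by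
    intro i
    have h1 : ‖p i 0‖ ≤ ‖p i‖ := PiLp.norm_apply_le (p i) 0
    rw [hp i] at h1
    have := norm_nonneg (p i 0)
    nlinarith
  have hRpos : 0 < R := by
    have h1 := h0 ⟨0, hk⟩
    have h2 := hr ⟨0, hk⟩
    by_contra hneg
    rw [not_lt] at hneg
    have : R * ‖p ⟨0, hk⟩ 0‖ ^ 2 ≤ 0 := mul_nonpos_of_nonpos_of_nonneg hneg (sq_nonneg _)
    linarith
  have hrR : ∀ i, r i < R := by
    intro i
    have h1 := h0 i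
    have h2 := hp01 i
    nlinarith
  set ρ : ℝ := Real.sqrt (R / Real.pi) with hρdef
  have hρ2 : ρ ^ 2 = R / Real.pi := Real.sq_sqrt (by positivity)
  have hρ : 0 < ρ := Real.sqrt_pos.mpr (by positivity)
  have hR : Real.pi * ρ ^ 2 = R := by rw [hρ2]; field_simp
  choose U hU using fun i => exists_isometry (p i) (hp i)
  have ha' : ∀ i, r i < Real.pi * (ρ ^ 2 * ‖U i (e0 n) 0‖ ^ 2) := by
    intro i
    rw [hU i, ← mul_assoc, hR]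
    exact h0 i
  refine ⟨fun i => F n ρ (U i), fun i => isSympEmb_F hρ (U i) (r i) (ha' i),
    fun i => image_sub' hρ (U i) (r i) R hR (ha' i), ?_⟩
  intro i j hne
  rw [Set.disjoint_left]
  rintro _ ⟨z, hz, rfl⟩ ⟨z', hz', heq⟩
  have hd : z ∈ dom n ρ (U i) := mem_dom hρ (U i) (cball_sub' (U i) (r i) (ha' i) hz)
  have hd' : z' ∈ dom n ρ (U j) := mem_dom hρ (U j) (cball_sub' (U j) (r j) (ha' j) hz')
  have h1 := cball_norm' hz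
  have h2 := cball_norm' hz'
  refine F_ne_F_general hρ (U i) (U j) hd hd' ?_ heq.symm
  rw [hU i, hU j]
  have hH := hij i j hne
  -- bounds
  have b1 : Real.pi * (‖z‖ * ‖z'‖) ≤ Real.sqrt (r i * r j) := by
    apply Real.le_sqrt_of_sq_le
    have e : (Real.pi * (‖z‖ * ‖z'‖)) ^ 2 = (Real.pi * ‖z‖ ^ 2) * (Real.pi * ‖z'‖ ^ 2) := by ring
    rw [e]
    exact mul_le_mul h1 h2 (by positivity) (hr i).le
  have c1 : R - r i ≤ Real.pi * (ρ ^ 2 - ‖z‖ ^ 2) := by rw [mul_sub, hR]; linarith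
  have c2 : R - r j ≤ Real.pi * (ρ ^ 2 - ‖z'‖ ^ 2) := by rw [mul_sub, hR]; linarith
  have d1 : 0 ≤ R - r i := by linarith [hrR i]
  have d2 : 0 ≤ R - r j := by linarith [hrR j]
  have g1 : 0 ≤ ρ ^ 2 - ‖z‖ ^ 2 := by
    have : 0 ≤ Real.pi * (ρ ^ 2 - ‖z‖ ^ 2) := le_trans d1 c1
    exact nonneg_of_mul_nonneg_right this hpi
  have b2 : Real.sqrt ((R - r i) * (R - r j)) ≤
      Real.pi * (Real.sqrt (ρ ^ 2 - ‖z‖ ^ 2) * Real.sqrt (ρ ^ 2 - ‖z'‖ ^ 2)) := by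
    rw [← Real.sqrt_mul g1]
    have e : Real.pi * Real.sqrt ((ρ ^ 2 - ‖z‖ ^ 2) * (ρ ^ 2 - ‖z'‖ ^ 2))
        = Real.sqrt ((Real.pi * (ρ ^ 2 - ‖z‖ ^ 2)) * (Real.pi * (ρ ^ 2 - ‖z'‖ ^ 2))) := by
      have : (Real.pi * (ρ ^ 2 - ‖z‖ ^ 2)) * (Real.pi * (ρ ^ 2 - ‖z'‖ ^ 2))
          = Real.pi ^ 2 * ((ρ ^ 2 - ‖z‖ ^ 2) * (ρ ^ 2 - ‖z'‖ ^ 2)) := by ring
      rw [this, Real.sqrt_mul (sq_nonneg _), Real.sqrt_sq hpi.le]
    rw [e]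
    exact Real.sqrt_le_sqrt (mul_le_mul c1 c2 d2 (le_trans d1 c1))
  have fin : Real.pi * (ρ ^ 2 * ‖inner ℂ (p i) (p j)‖ + ‖z‖ * ‖z'‖) <
      Real.pi * (Real.sqrt (ρ ^ 2 - ‖z‖ ^ 2) * Real.sqrt (ρ ^ 2 - ‖z'‖ ^ 2)) := by
    have e : Real.pi * (ρ ^ 2 * ‖inner ℂ (p i) (p j)‖ + ‖z‖ * ‖z'‖)
        = R * ‖inner ℂ (p i) (p j)‖ + Real.pi * (‖z‖ * ‖z'‖) := by
      rw [← hR]; ring
    rw [e]
    linarith
  exact lt_of_mul_lt_mul_left fin hpi.le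

end Vale.Agent.P209
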