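import Vale.Agent.Lib.P209.FS.Tri

/-!
# P209 FS module M2: disjointness of two Fubini-Study balls with NON-orthogonal centres (FROZEN)

ROUTE.  Copy the first half of the proof of `F_ne_F` in `Lift.lean` (the private lemmas `norm_ph`,
`sig_zero` there must be re-proved privately here): if `F U z = F U' z'` then
`w := θ • U (sig z) = θ' • U' (sig z')`, `‖w‖ = ρ`, `‖⟪U e0, w⟫‖² = ρ² - ‖z‖²`,
`‖⟪U' e0, w⟫‖² = ρ² - ‖z'‖²`.  Apply `fs_triangle` to `ŵ = ρ⁻¹ • w`, `p = U e0`, `q = U' e0`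
(`‖p‖ = ‖q‖ = 1`): `‖⟪ŵ,p⟫‖ = √(ρ²-‖z‖²)/ρ`, `1 - ‖⟪ŵ,p⟫‖² = ‖z‖²/ρ²`, whose square root is `‖z‖/ρ`.
Multiply by `ρ²`: `√(ρ²-‖z‖²) √(ρ²-‖z'‖²) ≤ ρ² ‖⟪p,q⟫‖ + ‖z‖ ‖z'‖`, contradiction.
-/

namespace Vale.Agent.P209

variable {n : ℕ} {ρ : ℝ}

private theorem sig_zero' (z : Cn n) :
    sig n ρ z 0 = ((Real.sqrt (ρ ^ 2 - ‖z‖ ^ 2) : ℝ) : ℂ) := rfl

private theorem norm_ph' {w : Cn (n + 1)} (hw : w 0 ≠ 0) : ‖ph w‖ = 1 := by
  unfold ph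
  rw [norm_div, RCLike.norm_conj, Complex.norm_real, norm_norm]
  exact div_self (norm_ne_zero_iff.mpr hw)

theorem F_ne_F_general (hρ : 0 < ρ) (U U' : Cn (n + 1) ≃ₗᵢ[ℂ] Cn (n + 1)) {z z' : Cn n}
    (hz : z ∈ dom n ρ U) (hz' : z' ∈ dom n ρ U')
    (hlt : ρ ^ 2 * ‖inner ℂ (U (e0 n)) (U' (e0 n))‖ + ‖z‖ * ‖z'‖ <
      Real.sqrt (ρ ^ 2 - ‖z‖ ^ 2) * Real.sqrt (ρ ^ 2 - ‖z'‖ ^ 2)) :
    F n ρ U z ≠ F n ρ U' z' := by
  intro h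
  have h1 : ph (U (sig n ρ z)) • U (sig n ρ z) = ph (U' (sig n ρ z')) • U' (sig n ρ z') := by
    rw [← sig_F hρ U hz, ← sig_F hρ U' hz', h]
  set θ := ph (U (sig n ρ z)) with hθ
  set θ' := ph (U' (sig n ρ z')) with hθ'
  have hn : ‖θ‖ = 1 := norm_ph' hz.2
  have hn' : ‖θ'‖ = 1 := norm_ph' hz'.2
  set w := θ • U (sig n ρ z) with hw
  have hwn : ‖w‖ = ρ := by
    rw [hw, norm_smul, hn, one_mul, LinearIsometryEquiv.norm_map]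
    exact norm_sig hρ hz.1.le
  have he0 : ‖e0 n‖ = 1 := by
    simp [e0]
  have hin : ∀ x : Cn (n + 1), inner ℂ (e0 n) x = x 0 := by
    intro x
    simp [e0, EuclideanSpace.inner_single_left]
  have ha : ‖inner ℂ (U (e0 n)) w‖ = Real.sqrt (ρ ^ 2 - ‖z‖ ^ 2) := by
    rw [hw, inner_smul_right, LinearIsometryEquiv.inner_map_map, hin, sig_zero', norm_mul, hn,
      one_mul, Complex.norm_real, Real.norm_eq_abs, abs_of_nonneg (Real.sqrt_nonneg _)]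
  have hb : ‖inner ℂ (U' (e0 n)) w‖ = Real.sqrt (ρ ^ 2 - ‖z'‖ ^ 2) := by
    rw [h1, inner_smul_right, LinearIsometryEquiv.inner_map_map, hin, sig_zero', norm_mul, hn',
      one_mul, Complex.norm_real, Real.norm_eq_abs, abs_of_nonneg (Real.sqrt_nonneg _)]
  set A := Real.sqrt (ρ ^ 2 - ‖z‖ ^ 2) with hA
  set B := Real.sqrt (ρ ^ 2 - ‖z'‖ ^ 2) with hB
  have hA2 : A ^ 2 = ρ ^ 2 - ‖z‖ ^ 2 := Real.sq_sqrt (by
    have := hz.1; nlinarith [norm_nonneg z])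
  have hB2 : B ^ 2 = ρ ^ 2 - ‖z'‖ ^ 2 := Real.sq_sqrt (by
    have := hz'.1; nlinarith [norm_nonneg z'])
  -- the unit vector
  set v : Cn (n + 1) := ((ρ⁻¹ : ℝ) : ℂ) • w with hv
  have hvn : ‖v‖ = 1 := by
    rw [hv, norm_smul, hwn, Complex.norm_real, Real.norm_eq_abs, abs_of_pos (inv_pos.mpr hρ)]
    exact inv_mul_cancel₀ hρ.ne'
  have hva : ‖inner ℂ v (U (e0 n))‖ = A / ρ := by
    rw [hv, inner_smul_left, norm_mul, RCLike.norm_conj, Complex.norm_real, Real.norm_eq_abs,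
      abs_of_pos (inv_pos.mpr hρ), ← inner_conj_symm, RCLike.norm_conj, ha]
    field_simp
  have hvb : ‖inner ℂ v (U' (e0 n))‖ = B / ρ := by
    rw [hv, inner_smul_left, norm_mul, RCLike.norm_conj, Complex.norm_real, Real.norm_eq_abs,
      abs_of_pos (inv_pos.mpr hρ), ← inner_conj_symm, RCLike.norm_conj, hb]
    field_simp
  have key := fs_triangle v (U (e0 n)) (U' (e0 n)) hvn
  rw [hva, hvb, LinearIsometryEquiv.norm_map, LinearIsometryEquiv.norm_map, he0] at key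
  have s1 : Real.sqrt (1 ^ 2 - (A / ρ) ^ 2) = ‖z‖ / ρ := by
    have : (1:ℝ) ^ 2 - (A / ρ) ^ 2 = (‖z‖ / ρ) ^ 2 := by
      rw [div_pow, div_pow, hA2]; field_simp; ring
    rw [this, Real.sqrt_sq (by positivity)]
  have s2 : Real.sqrt (1 ^ 2 - (B / ρ) ^ 2) = ‖z'‖ / ρ := by
    have : (1:ℝ) ^ 2 - (B / ρ) ^ 2 = (‖z'‖ / ρ) ^ 2 := by
      rw [div_pow, div_pow, hB2]; field_simp; ring
    rw [this, Real.sqrt_sq (by positivity)]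
  rw [s1, s2] at key
  have key2 : A * B ≤ ρ ^ 2 * ‖inner ℂ (U (e0 n)) (U' (e0 n))‖ + ‖z‖ * ‖z'‖ := by
    have h5 := mul_le_mul_of_nonneg_left key (sq_nonneg ρ)
    have e1 : ρ ^ 2 * (A / ρ * (B / ρ)) = A * B := by field_simp
    have e2 : ρ ^ 2 * (‖inner ℂ (U (e0 n)) (U' (e0 n))‖ + ‖z‖ / ρ * (‖z'‖ / ρ))
        = ρ ^ 2 * ‖inner ℂ (U (e0 n)) (U' (e0 n))‖ + ‖z‖ * ‖z'‖ := by field_simp
    rw [e1, e2] at h5
    exact h5
  linarith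

end Vale.Agent.P209
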