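import Mathlib

/-!
# P209 FS module M5: choice of the slack (FROZEN; pure real analysis, no P209 definitions)

ROUTE.  `a i = r i / R ∈ (0,1)`.  For `ε > 0` put `α i = (1 + ε) a i`.  All the finitely many conditions
hold for all small `ε > 0`: work with the filter `nhdsWithin 0 (Set.Ioi 0)` (`Filter.eventually_all`
for the finite types, `Filter.Eventually.exists`, `self_mem_nhdsWithin`).
(1) `α i ≤ 1`: `(1+ε) a i → a i < 1`.  (2) `r i < R α i` for every `ε > 0`.
(3) `G(ε) = R |√(α i α j) - √((1-α i)(1-α j))/(k-1)| + √(r i r j)` is continuous (`fun_prop`), and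
`G(0) = |X - Y/(k-1)| + X` with `X = √(r i r j)`, `Y = √((R-r i)(R-r j)) > 0`
(`R √(a i a j) = X`, `R √((1-a i)(1-a j)) = Y`: `Real.sqrt_eq_iff_mul_self_eq`/`Real.sqrt_mul_self`, pull
`R = √(R²)` inside).  `G(0) < Y`: if `X ≥ Y/(k-1)` this is `2 (k-1) X < k Y` (`h`); otherwise it is
`Y/(k-1) < Y` (`k ≥ 3`).  `Filter.Tendsto.eventually_lt_const`.
-/

namespace Vale.Agent.P209

theorem exists_slack (k : ℕ) (hk : 3 ≤ k) (r : Fin k → ℝ) (hr : ∀ i, 0 < r i) (R : ℝ)
    (hlt : ∀ i, r i < R)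
    (h : ∀ i j, i ≠ j → 2 * ((k : ℝ) - 1) * Real.sqrt (r i * r j) <
      k * Real.sqrt ((R - r i) * (R - r j))) :
    ∃ α : Fin k → ℝ, (∀ i, 0 ≤ α i ∧ α i ≤ 1) ∧ (∀ i, r i < R * α i) ∧
      ∀ i j, i ≠ j →
        R * |Real.sqrt (α i) * Real.sqrt (α j) -
            Real.sqrt (1 - α i) * Real.sqrt (1 - α j) / ((k : ℝ) - 1)| + Real.sqrt (r i * r j) <
          Real.sqrt ((R - r i) * (R - r j)) := by
  have hR : 0 < R := lt_trans (hr ⟨0, by omega⟩) (hlt ⟨0, by omega⟩)
  have hc : (2 : ℝ) ≤ (k : ℝ) - 1 := by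
    have : (3 : ℝ) ≤ (k : ℝ) := by exact_mod_cast hk
    linarith
  have ha0 : ∀ i, 0 < r i / R := fun i => div_pos (hr i) hR
  have ha1 : ∀ i, r i / R < 1 := fun i => (div_lt_one hR).2 (hlt i)
  -- the value at zero
  have hX : ∀ i j, R * (Real.sqrt (r i / R) * Real.sqrt (r j / R)) = Real.sqrt (r i * r j) := by
    intro i j
    have h1 : ∀ i, Real.sqrt (r i) = Real.sqrt R * Real.sqrt (r i / R) := by
      intro i
      rw [← Real.sqrt_mul hR.le]
      congr 1
      field_simp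
    rw [Real.sqrt_mul (hr i).le, h1 i, h1 j]
    have h2 := Real.mul_self_sqrt hR.le
    calc R * (Real.sqrt (r i / R) * Real.sqrt (r j / R))
        = (Real.sqrt R * Real.sqrt R) * (Real.sqrt (r i / R) * Real.sqrt (r j / R)) := by rw [h2]
      _ = _ := by ring
  have hY : ∀ i j, R * (Real.sqrt (1 - r i / R) * Real.sqrt (1 - r j / R)) =
      Real.sqrt ((R - r i) * (R - r j)) := by
    intro i j
    have h1 : ∀ i, Real.sqrt (R - r i) = Real.sqrt R * Real.sqrt (1 - r i / R) := by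
      intro i
      rw [← Real.sqrt_mul hR.le]
      congr 1
      field_simp
    rw [Real.sqrt_mul (sub_pos.2 (hlt i)).le, h1 i, h1 j]
    have h2 := Real.mul_self_sqrt hR.le
    calc R * (Real.sqrt (1 - r i / R) * Real.sqrt (1 - r j / R))
        = (Real.sqrt R * Real.sqrt R) * (Real.sqrt (1 - r i / R) * Real.sqrt (1 - r j / R)) := by
          rw [h2]
      _ = _ := by ring
  have h0 : ∀ i j, i ≠ j →
      R * |Real.sqrt ((1 + 0) * (r i / R)) * Real.sqrt ((1 + 0) * (r j / R)) -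
            Real.sqrt (1 - (1 + 0) * (r i / R)) * Real.sqrt (1 - (1 + 0) * (r j / R)) / ((k : ℝ) - 1)|
          + Real.sqrt (r i * r j) < Real.sqrt ((R - r i) * (R - r j)) := by
    intro i j hij
    have hh := h i j hij
    have hYpos : 0 < Real.sqrt ((R - r i) * (R - r j)) :=
      Real.sqrt_pos.2 (mul_pos (sub_pos.2 (hlt i)) (sub_pos.2 (hlt j)))
    rw [← abs_of_pos hR, ← abs_mul, abs_of_pos hR]
    have e1 : R * (Real.sqrt ((1 + 0) * (r i / R)) * Real.sqrt ((1 + 0) * (r j / R)) -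
            Real.sqrt (1 - (1 + 0) * (r i / R)) * Real.sqrt (1 - (1 + 0) * (r j / R)) / ((k : ℝ) - 1))
        = Real.sqrt (r i * r j) - Real.sqrt ((R - r i) * (R - r j)) / ((k : ℝ) - 1) := by
      rw [← hX i j, ← hY i j]
      simp only [add_zero, one_mul]
      ring
    rw [e1]
    set X := Real.sqrt (r i * r j) with hXdef
    set Y := Real.sqrt ((R - r i) * (R - r j)) with hYdef
    set c := (k : ℝ) - 1 with hcdef
    have hk' : (k : ℝ) = c + 1 := by rw [hcdef]; ring
    rw [hk'] at hh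
    have hcpos : 0 < c := by linarith
    obtain ⟨Z, hZ⟩ : ∃ Z, Z = Y / c := ⟨_, rfl⟩
    have hYZ : Y = c * Z := by rw [hZ]; field_simp
    rw [← hZ]
    have hZpos : 0 < Z := by rw [hZ]; exact div_pos hYpos hcpos
    have h2X : 2 * X < (c + 1) * Z := by
      have : c * (2 * X) < c * ((c + 1) * Z) := by
        rw [hYZ] at hh
        nlinarith
      exact lt_of_mul_lt_mul_left this hcpos.le
    have habs : |X - Z| < Y - X := by
      rw [abs_lt, hYZ]
      constructor
      · nlinarith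
      · nlinarith
    linarith
  -- eventually statements
  have hpos : ∀ᶠ ε : ℝ in nhdsWithin 0 (Set.Ioi 0), 0 < ε := self_mem_nhdsWithin
  have hev1 : ∀ᶠ ε : ℝ in nhdsWithin 0 (Set.Ioi 0), ∀ i, (1 + ε) * (r i / R) < 1 := by
    rw [Filter.eventually_all]
    intro i
    have hcont : Continuous fun ε : ℝ => (1 + ε) * (r i / R) := by fun_prop
    have ht : Filter.Tendsto (fun ε : ℝ => (1 + ε) * (r i / R)) (nhdsWithin 0 (Set.Ioi 0))
        (nhds ((1 + 0) * (r i / R))) := (hcont.tendsto 0).mono_left nhdsWithin_le_nhds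
    refine ht.eventually_lt_const ?_
    simpa using ha1 i
  have hev3 : ∀ᶠ ε : ℝ in nhdsWithin 0 (Set.Ioi 0), ∀ i j, i ≠ j →
      R * |Real.sqrt ((1 + ε) * (r i / R)) * Real.sqrt ((1 + ε) * (r j / R)) -
            Real.sqrt (1 - (1 + ε) * (r i / R)) * Real.sqrt (1 - (1 + ε) * (r j / R)) / ((k : ℝ) - 1)|
          + Real.sqrt (r i * r j) < Real.sqrt ((R - r i) * (R - r j)) := by
    rw [Filter.eventually_all]
    intro i
    rw [Filter.eventually_all]
    intro j
    by_cases hij : i = j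
    · exact Filter.Eventually.of_forall fun ε hne => absurd hij hne
    · have hcont : Continuous fun ε : ℝ =>
          R * |Real.sqrt ((1 + ε) * (r i / R)) * Real.sqrt ((1 + ε) * (r j / R)) -
            Real.sqrt (1 - (1 + ε) * (r i / R)) * Real.sqrt (1 - (1 + ε) * (r j / R)) / ((k : ℝ) - 1)|
          + Real.sqrt (r i * r j) := by fun_prop
      have ht := (hcont.tendsto 0).mono_left (nhdsWithin_le_nhds (s := Set.Ioi 0))
      exact (ht.eventually_lt_const (h0 i j hij)).mono fun ε hε _ => hε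
  obtain ⟨ε, hε0, hε1, hε3⟩ := (hpos.and (hev1.and hev3)).exists
  refine ⟨fun i => (1 + ε) * (r i / R), fun i => ⟨?_, (hε1 i).le⟩, fun i => ?_, fun i j hij => hε3 i j hij⟩
  · exact mul_nonneg (by linarith) (ha0 i).le
  · have e : R * ((1 + ε) * (r i / R)) = (1 + ε) * r i := by field_simp
    show r i < R * ((1 + ε) * (r i / R))
    rw [e]
    nlinarith [hr i]

end Vale.Agent.P209
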