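import Vale.Agent.Lib.P209.Defs

/-!
# P209 FS module M4: the simplex configuration (FROZEN)

ROUTE.  `γ = √(k/(k-1))`, `γ² = k/(k-1)`.  `p i = toLp 2 (Fin.cons (c i : ℂ) (fun j : Fin n =>
if (j : ℕ) < k then ((s i * γ * ((if (j : ℕ) = i then 1 else 0) - 1/k) : ℝ) : ℂ) else 0))`.
All coordinates are real.  `⟪p i, p i'⟫ = c i c i' + s i s i' γ² ∑_{j<k} (δ_ij - 1/k)(δ_i'j - 1/k)
= c i c i' + s i s i' γ² (δ_ii' - 1/k)` (`PiLp.inner_apply`, `Fin.sum_univ_succ`; the sum over `j : Fin n`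
with `j < k` can be reindexed by `Fin.castLE hkn : Fin k → Fin n`, e.g. `Finset.sum_subset` /
`Fin.sum_univ_castLE`-style or `Finset.sum_bij`, or write it over `Finset.range`).
`i = i'`: `γ² (1 - 1/k) = 1`, so `‖p i‖² = c² + s² = 1`.  `i ≠ i'`: `-γ²/k = -1/(k-1)`.
-/

namespace Vale.Agent.P209

private theorem simplex_sum (n k : ℕ) (hk : 0 < k) (hkn : k ≤ n) (i i' : Fin k) :
    ∑ j : Fin n, (if (j : ℕ) < k then ((if (j : ℕ) = i then (1 : ℝ) else 0) - 1 / k) else 0) *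
      (if (j : ℕ) < k then ((if (j : ℕ) = i' then (1 : ℝ) else 0) - 1 / k) else 0) =
      (if i = i' then 1 else 0) - 1 / k := by
  rw [Fin.sum_univ_eq_sum_range (fun j : ℕ =>
    (if j < k then ((if j = (i : ℕ) then (1 : ℝ) else 0) - 1 / k) else 0) *
      (if j < k then ((if j = (i' : ℕ) then (1 : ℝ) else 0) - 1 / k) else 0)) n]
  rw [← Finset.sum_subset (Finset.range_subset_range.2 hkn) (fun j _ hj => by
    have hj' : ¬ j < k := fun h => hj (Finset.mem_range.2 h)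
    simp [hj'])]
  have hterm : ∀ j ∈ Finset.range k,
      (if j < k then ((if j = (i : ℕ) then (1 : ℝ) else 0) - 1 / k) else 0) *
      (if j < k then ((if j = (i' : ℕ) then (1 : ℝ) else 0) - 1 / k) else 0) =
      (if j = (i : ℕ) then (if i = i' then (1 : ℝ) else 0) else 0)
        - (1 / k) * (if j = (i : ℕ) then (1 : ℝ) else 0)
        - (1 / k) * (if j = (i' : ℕ) then (1 : ℝ) else 0) + (1 / k) ^ 2 := by
    intro j hj
    have hj' : j < k := Finset.mem_range.1 hj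
    rw [if_pos hj', if_pos hj']
    by_cases h1 : j = (i : ℕ)
    · by_cases h2 : i = i'
      · subst h2
        simp [h1]
        ring
      · have h3 : j ≠ (i' : ℕ) := fun h => h2 (Fin.ext (h1.symm.trans h))
        simp [h1, h2, h1 ▸ h3]
        ring
    · by_cases h3 : j = (i' : ℕ)
      · simp [h3, h3 ▸ h1]
        ring
      · simp [h1, h3]
        ring
  rw [Finset.sum_congr rfl hterm, Finset.sum_add_distrib, Finset.sum_sub_distrib,
    Finset.sum_sub_distrib, ← Finset.mul_sum, ← Finset.mul_sum, Finset.sum_ite_eq',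
    Finset.sum_ite_eq', Finset.sum_ite_eq', Finset.sum_const, Finset.card_range, nsmul_eq_mul]
  simp only [Finset.mem_range, Fin.is_lt, if_true]
  have hk' : (k : ℝ) ≠ 0 := by exact_mod_cast hk.ne'
  field_simp
  ring

theorem exists_simplex (n k : ℕ) (hk : 2 ≤ k) (hkn : k ≤ n) (c s : Fin k → ℝ)
    (h : ∀ i, c i ^ 2 + s i ^ 2 = 1) :
    ∃ p : Fin k → Cn (n + 1), (∀ i, ‖p i‖ = 1) ∧ (∀ i, p i 0 = (c i : ℂ)) ∧
      ∀ i j, i ≠ j → inner ℂ (p i) (p j) = ((c i * c j - s i * s j / ((k : ℝ) - 1) : ℝ) : ℂ) := by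
  have hk0 : 0 < k := by omega
  have hkR : (2 : ℝ) ≤ k := by exact_mod_cast hk
  have hk1 : (0 : ℝ) < (k : ℝ) - 1 := by linarith
  have hkpos : (0 : ℝ) < k := by linarith
  obtain ⟨γ, hγ⟩ : ∃ γ : ℝ, γ ^ 2 = (k : ℝ) / ((k : ℝ) - 1) :=
    ⟨Real.sqrt ((k : ℝ) / ((k : ℝ) - 1)), Real.sq_sqrt (by positivity)⟩
  let v : Fin k → Fin (n + 1) → ℝ := fun i => Fin.cons (c i) (fun j : Fin n =>
    s i * γ * (if (j : ℕ) < k then ((if (j : ℕ) = i then (1 : ℝ) else 0) - 1 / k) else 0))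
  let p : Fin k → Cn (n + 1) := fun i => WithLp.toLp 2 (fun j => ((v i j : ℝ) : ℂ))
  have hinner : ∀ i i', inner ℂ (p i) (p i') =
      ((c i * c i' + s i * s i' * (γ ^ 2 * ((if i = i' then 1 else 0) - 1 / k)) : ℝ) : ℂ) := by
    intro i i'
    rw [← simplex_sum n k hk0 hkn i i', PiLp.inner_apply, Fin.sum_univ_succ]
    have h0 : ∀ (a b : ℝ), inner ℂ (a : ℂ) (b : ℂ) = ((a * b : ℝ) : ℂ) := by
      intro a b
      simp [mul_comm]
    have e0 : ∀ i, (p i) 0 = ((c i : ℝ) : ℂ) := fun i => rfl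
    have es : ∀ i (j : Fin n), (p i) j.succ = ((s i * γ *
        (if (j : ℕ) < k then ((if (j : ℕ) = i then (1 : ℝ) else 0) - 1 / k) else 0) : ℝ) : ℂ) :=
      fun i j => rfl
    simp only [e0, es, h0]
    rw [← Complex.ofReal_sum, ← Complex.ofReal_add]
    congr 1
    rw [Finset.mul_sum, Finset.mul_sum]
    congr 1
    refine Finset.sum_congr rfl (fun j _ => ?_)
    ring
  refine ⟨p, fun i => ?_, fun i => rfl, fun i j hij => ?_⟩
  · have h1 : ‖p i‖ ^ 2 = RCLike.re (inner ℂ (p i) (p i)) := norm_sq_eq_re_inner (𝕜 := ℂ) (p i)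
    rw [hinner i i, if_pos rfl, hγ] at h1
    have h2 : c i * c i + s i * s i * ((k : ℝ) / ((k : ℝ) - 1) * (1 - 1 / k)) = 1 := by
      have h3 : (k : ℝ) / ((k : ℝ) - 1) * (1 - 1 / k) = 1 := by
        field_simp
      rw [h3]
      nlinarith [h i]
    rw [h2] at h1
    have h4 : ‖p i‖ ^ 2 = 1 := by simpa using h1
    have h5 : ‖p i‖ = 1 := by
      have h6 := norm_nonneg (p i)
      nlinarith
    exact h5
  · rw [hinner i j, if_neg hij, hγ]
    congr 1
    field_simp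
    ring

end Vale.Agent.P209
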