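import Vale.Agent.Lib.P209.FS.Config
import Vale.Agent.Lib.P209.FS.Simplex
import Vale.Agent.Lib.P209.FS.Eps

/-! # P209 FS: assembly -/

namespace Vale.Agent.P209

theorem simplex_packing (n k : ℕ) (hk : 3 ≤ k) (hkn : k ≤ n) (r : Fin k → ℝ) (hr : ∀ i, 0 < r i)
    (R : ℝ) (hlt : ∀ i, r i < R)
    (h : ∀ i j, i ≠ j → 2 * ((k : ℝ) - 1) * Real.sqrt (r i * r j) <
      k * Real.sqrt ((R - r i) * (R - r j))) : Packs n k r R := by
  obtain ⟨α, hα, hα0, hαij⟩ := exists_slack k hk r hr R hlt h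
  obtain ⟨p, hp, hp0, hpij⟩ := exists_simplex n k (by omega) hkn (fun i => Real.sqrt (α i))
    (fun i => Real.sqrt (1 - α i)) (fun i => by
      rw [Real.sq_sqrt (hα i).1, Real.sq_sqrt (by linarith [(hα i).2])]; ring)
  refine packs_of_config n k r hr R p hp ?_ ?_
  · intro i
    rw [hp0 i, Complex.norm_real, Real.norm_eq_abs, sq_abs, Real.sq_sqrt (hα i).1]
    exact hα0 i
  · intro i j hij
    rw [hpij i j hij, Complex.norm_real, Real.norm_eq_abs]
    exact hαij i j hij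

end Vale.Agent.P209
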