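import Vale.Agent.Lib.P209.FS.Main
import Vale.Agent.Lib.P209.Compose

/-! # P209 FS: nesting packings inside the balls of a packing -/

namespace Vale.Agent.P209

theorem packs_nest (n k m : ℕ) (ρ : Fin k → ℝ) (R : ℝ) (s : Fin k → Fin m → ℝ)
    (h1 : Packs n k ρ R) (h2 : ∀ i, Packs n m (s i) (ρ i)) :
    Packs n (k * m)
      (fun x => s (finProdFinEquiv.symm x).1 (finProdFinEquiv.symm x).2) R := by
  obtain ⟨φ, hφ1, hφ2, hφ3⟩ := h1
  choose ψ hψ1 hψ2 hψ3 using h2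
  have hoc : ∀ b : ℝ, oball n b ⊆ cball n b := fun b z hz => by
    simp only [oball, cball, Set.mem_ofPred_eq] at hz ⊢
    exact le_of_lt hz
  have himg : ∀ i j, (φ i ∘ ψ i j) '' cball n (s i j) ⊆ φ i '' cball n (ρ i) := by
    intro i j
    rw [Set.image_comp]
    exact Set.image_mono ((hψ2 i j).trans (hoc _))
  have hdis : ∀ a b : Fin k × Fin m, a ≠ b →
      Disjoint ((φ a.1 ∘ ψ a.1 a.2) '' cball n (s a.1 a.2))
        ((φ b.1 ∘ ψ b.1 b.2) '' cball n (s b.1 b.2)) := by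
    rintro ⟨i, j⟩ ⟨i', j'⟩ hne
    by_cases hi : i = i'
    · subst hi
      have hj : j ≠ j' := fun h => hne (by rw [h])
      obtain ⟨U, _, hUc, _, hinj, _⟩ := hφ1 i
      rw [Set.disjoint_left]
      rintro x ⟨z1, hz1, rfl⟩ ⟨z2, hz2, hz⟩
      have m1 : ψ i j z1 ∈ ψ i j '' cball n (s i j) := ⟨z1, hz1, rfl⟩
      have m2 : ψ i j' z2 ∈ ψ i j' '' cball n (s i j') := ⟨z2, hz2, rfl⟩
      have heq : ψ i j' z2 = ψ i j z1 :=
        hinj (hUc (hoc _ (hψ2 i j' m2))) (hUc (hoc _ (hψ2 i j m1))) hz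
      exact Set.disjoint_left.1 (hψ3 i j j' hj) m1 (heq ▸ m2)
    · exact ((hφ3 i i' hi).mono_left (himg i j)).mono_right (himg i' j')
  refine ⟨fun x => φ (finProdFinEquiv.symm x).1 ∘
    ψ (finProdFinEquiv.symm x).1 (finProdFinEquiv.symm x).2, ?_, ?_, ?_⟩
  · intro x
    exact isSympEmb_comp (hφ1 _) (hψ1 _ _) (hψ2 _ _)
  · intro x
    exact (himg _ _).trans (hφ2 _)
  · intro x y hxy
    exact hdis _ _ (fun h => hxy (finProdFinEquiv.symm.injective h))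

theorem grouped_packing (n k m : ℕ) (hk : 3 ≤ k) (hkn : k ≤ n) (ρ : Fin k → ℝ) (R : ℝ)
    (s : Fin k → Fin m → ℝ) (hs : ∀ i j, 0 < s i j) (hρ : ∀ i, 0 < ρ i) (hlt : ∀ i, ρ i < R)
    (hsum : ∀ i, ∑ j, s i j < ρ i)
    (h : ∀ i j, i ≠ j → 2 * ((k : ℝ) - 1) * Real.sqrt (ρ i * ρ j) <
      k * Real.sqrt ((R - ρ i) * (R - ρ j))) :
    Packs n (k * m)
      (fun x => s (finProdFinEquiv.symm x).1 (finProdFinEquiv.symm x).2) R :=
  packs_nest n k m ρ R s (simplex_packing n k hk hkn ρ hρ R hlt h)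
    (fun i => packs_of_two_ball n (two_ball n (by omega)) m (s i) (hs i) (ρ i) (hsum i))

end Vale.Agent.P209
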