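import Vale.Agent.Lib.P209.TwoBall

/-!
# P209 FS module M1: the triangle inequality of the Fubini-Study metric, algebraic form (FROZEN)

ROUTE.  `a = ⟪w,p⟫`, `b = ⟪w,q⟫`, `p' = p - a • w`, `q' = q - b • w`.  `⟪w,w⟫ = 1`, `⟪p,w⟫ = conj a`.
`⟪p',q'⟫ = ⟪p,q⟫ - conj a * b` (expand with `inner_sub_left/right`, `inner_smul_left/right`),
`‖p'‖² = ‖p‖² - ‖a‖²` (`norm_sub_sq (𝕜 := ℂ)`), so `‖p'‖ = √(‖p‖² - ‖a‖²)`; the same for `q'`.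
`‖conj a * b‖ ≤ ‖⟪p,q⟫‖ + ‖⟪p',q'⟫‖ ≤ ‖⟪p,q⟫‖ + ‖p'‖ ‖q'‖` (`norm_inner_le_norm`).
-/

namespace Vale.Agent.P209

theorem fs_triangle {E : Type*} [NormedAddCommGroup E] [InnerProductSpace ℂ E] (w p q : E)
    (hw : ‖w‖ = 1) :
    ‖inner ℂ w p‖ * ‖inner ℂ w q‖ ≤ ‖inner ℂ p q‖ +
      Real.sqrt (‖p‖ ^ 2 - ‖inner ℂ w p‖ ^ 2) * Real.sqrt (‖q‖ ^ 2 - ‖inner ℂ w q‖ ^ 2) := by
  have hww : inner ℂ w w = (1 : ℂ) := by
    rw [inner_self_eq_norm_sq_to_K, hw]; simp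
  have key : ∀ x y : E, inner ℂ (x - inner ℂ w x • w) (y - inner ℂ w y • w) =
      inner ℂ x y - (starRingEnd ℂ) (inner ℂ w x) * inner ℂ w y := by
    intro x y
    simp only [inner_sub_left, inner_sub_right, inner_smul_left, inner_smul_right, hww]
    rw [← inner_conj_symm x w]
    ring
  have hsq : ∀ x : E, ‖x - inner ℂ w x • w‖ ^ 2 = ‖x‖ ^ 2 - ‖inner ℂ w x‖ ^ 2 := by
    intro x
    have h1 := key x x
    rw [inner_self_eq_norm_sq_to_K, inner_self_eq_norm_sq_to_K, Complex.conj_mul'] at h1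
    have h3 : ((‖x - inner ℂ w x • w‖ ^ 2 : ℝ) : ℂ) = ((‖x‖ ^ 2 - ‖inner ℂ w x‖ ^ 2 : ℝ) : ℂ) := by
      push_cast
      exact h1
    exact Complex.ofReal_injective h3
  have hs : ∀ x : E, Real.sqrt (‖x‖ ^ 2 - ‖inner ℂ w x‖ ^ 2) = ‖x - inner ℂ w x • w‖ := by
    intro x
    rw [← hsq x, Real.sqrt_sq (norm_nonneg _)]
  rw [hs p, hs q]
  have h2 : (starRingEnd ℂ) (inner ℂ w p) * inner ℂ w q =
      inner ℂ p q - inner ℂ (p - inner ℂ w p • w) (q - inner ℂ w q • w) := by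
    rw [key p q]; ring
  calc ‖inner ℂ w p‖ * ‖inner ℂ w q‖
      = ‖(starRingEnd ℂ) (inner ℂ w p) * inner ℂ w q‖ := by
        rw [norm_mul, RCLike.norm_conj]
    _ = ‖inner ℂ p q - inner ℂ (p - inner ℂ w p • w) (q - inner ℂ w q • w)‖ := by rw [h2]
    _ ≤ ‖inner ℂ p q‖ + ‖inner ℂ (p - inner ℂ w p • w) (q - inner ℂ w q • w)‖ := norm_sub_le _ _
    _ ≤ ‖inner ℂ p q‖ + ‖p - inner ℂ w p • w‖ * ‖q - inner ℂ w q • w‖ := by
        gcongr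
        exact norm_inner_le_norm _ _

end Vale.Agent.P209
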